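import Vale.Agent.P006.Main

open Filter Topology

theorem Vale.Agent.Results.P006.Patterson.result :
    Tendsto (fun X : ℝ =>
      (∑ p ∈ (Finset.range (⌊X⌋₊ + 1)).filter (fun p : ℕ => p.Prime ∧ p % 3 = 1),
        (∑ x ∈ Finset.range p, Complex.exp (2 * Real.pi * Complex.I * (x : ℂ) ^ 3 / (p : ℂ))) /
          ((2 * Real.sqrt (p : ℝ) : ℝ) : ℂ)) /
        ((X ^ (5 / 6 : ℝ) / Real.log X : ℝ) : ℂ)) atTop
      (𝓝 (((2 * Real.pi) ^ (2 / 3 : ℝ) / (5 * Real.Gamma (2 / 3)) : ℝ) : ℂ)) :=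
  Vale.Agent.P006.main_rat
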